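import Vale.Agent.P079.Main

open Filter Topology Set

namespace Vale.Agent.P079

variable {X : Type*} [NormedAddCommGroup X] [NormedSpace ℝ X] [CompleteSpace X]

theorem fixedPoint_of_nearWorth
    (hrefl : Function.Surjective (NormedSpace.inclusionInDoubleDual ℝ X))
    {μ : ℝ} (hμ0 : 0 ≤ μ) (hμ : 2 * μ ^ 2 + μ < 5) (hW : NearWorth X μ)
    {T : X → X} {C : Set X} (hC : InvSet T C)
    (hT : ∀ a ∈ C, ∀ b ∈ C, ‖T a - T b‖ ≤ ‖a - b‖) : ∃ x ∈ C, T x = x := by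
  obtain ⟨K, hKC, hK⟩ := exists_minInv hrefl hC
  have hTK : ∀ a ∈ K, ∀ b ∈ K, ‖T a - T b‖ ≤ ‖a - b‖ := fun a ha b hb =>
    hT a (hKC ha) b (hKC hb)
  obtain ⟨r0, hr0⟩ := Metric.isBounded_iff.1 hK.1.bounded
  have hr0' : ∀ a ∈ K, ∀ b ∈ K, ‖a - b‖ ≤ r0 := fun a ha b hb => by
    rw [← dist_eq_norm]; exact hr0 ha hb
  set κ : ℝ := (3 + μ + 2 * μ ^ 2) / 8 with hκ
  have hκ1 : κ < 1 := by rw [hκ]; linarith
  have hκ0 : 0 ≤ κ := by rw [hκ]; positivity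
  set κ' : ℝ := (1 + κ) / 2 with hκ'
  have hκ'1 : κ' < 1 := by rw [hκ']; linarith
  have hκ'0 : 0 ≤ κ' := by rw [hκ']; linarith
  obtain ⟨x0, hx0⟩ := hK.1.nonempty
  have step : ∀ r : ℝ, (∀ a ∈ K, ∀ b ∈ K, ‖a - b‖ ≤ r) → ∀ a ∈ K, ∀ b ∈ K, ‖a - b‖ ≤ κ' * r := by
    intro r hr
    have hrnn : 0 ≤ r := le_trans (norm_nonneg _) (hr x0 hx0 x0 hx0)
    rcases hrnn.eq_or_lt with h0 | hpos
    · intro a ha b hb
      have := hr a ha b hb
      rw [← h0] at this ⊢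
      simpa using this
    · obtain ⟨xi, hxiK, hxi⟩ := main_lemma hrefl hμ0 hW hK.1 hTK hr
      apply hK.goebel_karlovitz hrefl hTK hxiK
      intro δ hδ
      have ht0 : 0 < min 1 (δ / r) := lt_min one_pos (by positivity)
      obtain ⟨y, hyK, hy1, hy2⟩ := hxi (min 1 (δ / r)) ht0 (min_le_left _ _)
        ((1 - κ) / 2 * r) (by
          have : 0 < 1 - κ := by linarith
          positivity)
      refine ⟨y, hyK, ?_, ?_⟩
      · calc ‖y - T y‖ ≤ min 1 (δ / r) * r := hy1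
          _ ≤ δ / r * r := by gcongr; exact min_le_right _ _
          _ = δ := by field_simp
      · calc ‖y - xi‖ ≤ κ * r + (1 - κ) / 2 * r := hy2
          _ = κ' * r := by rw [hκ']; ring
  have hpow : ∀ n : ℕ, ∀ a ∈ K, ∀ b ∈ K, ‖a - b‖ ≤ κ' ^ n * r0 := by
    intro n
    induction n with
    | zero => simpa using hr0'
    | succ n ih =>
      intro a ha b hb
      have := step _ ih a ha b hb
      calc ‖a - b‖ ≤ κ' * (κ' ^ n * r0) := this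
        _ = κ' ^ (n + 1) * r0 := by ring
  have hsingle : ∀ a ∈ K, ∀ b ∈ K, a = b := by
    intro a ha b hb
    have h1 : Tendsto (fun n : ℕ => κ' ^ n * r0) atTop (𝓝 (0 * r0)) :=
      (tendsto_pow_atTop_nhds_zero_of_lt_one hκ'0 hκ'1).mul_const r0
    rw [zero_mul] at h1
    have h2 : ‖a - b‖ ≤ 0 := ge_of_tendsto' h1 (fun n => hpow n a ha b hb)
    have h3 : ‖a - b‖ = 0 := le_antisymm h2 (norm_nonneg _)
    exact sub_eq_zero.1 (norm_eq_zero.1 h3)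
  exact ⟨x0, hKC hx0, hsingle _ (hK.1.maps hx0) _ hx0⟩

end Vale.Agent.P079
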